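import Mathlib

/-! A virial functional for the linearized system and its derivative. -/

open Set Filter Topology MeasureTheory Complex
open scoped ComplexConjugate

namespace Vale.Agent.P139Z.LS

/-- The virial functional. -/
noncomputable def Wf (lam : ℂ) (L κ : ℝ) (α η : ℝ → ℂ) (w V P φ : ℝ → ℝ) (x : ℝ) : ℝ :=
  (lam * (conj (deriv α x) * α x + conj (deriv η x) * η x)).re * w x
    + V x * (‖deriv α x‖ ^ 2 + ‖deriv η x‖ ^ 2 - P x * ‖α x‖ ^ 2) / 2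
    - L * (V x / x ^ 2) * (‖α x‖ ^ 2 + ‖η x‖ ^ 2) / 2 + κ * (φ x * ‖α x‖ ^ 2)

theorem hasDerivAt_re {u : ℝ → ℂ} {u' : ℂ} {r : ℝ} (h : HasDerivAt u u' r) :
    HasDerivAt (fun x => (u x).re) u'.re r :=
  Complex.reCLM.hasFDerivAt.comp_hasDerivAt r h

theorem hasDerivAt_im {u : ℝ → ℂ} {u' : ℂ} {r : ℝ} (h : HasDerivAt u u' r) :
    HasDerivAt (fun x => (u x).im) u'.im r :=
  Complex.imCLM.hasFDerivAt.comp_hasDerivAt r h

theorem hasDerivAt_cj {u : ℝ → ℂ} {u' : ℂ} {r : ℝ} (h : HasDerivAt u u' r) :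
    HasDerivAt (fun x => conj (u x)) (conj u') r :=
  Complex.conjCLE.toContinuousLinearMap.hasFDerivAt.comp_hasDerivAt r h

theorem hasDerivAt_nsq {u : ℝ → ℂ} {u' : ℂ} {r : ℝ} (h : HasDerivAt u u' r) :
    HasDerivAt (fun x => ‖u x‖ ^ 2) (2 * (conj (u r) * u').re) r := by
  have e : (fun x => ‖u x‖ ^ 2) = fun x => (u x).re * (u x).re + (u x).im * (u x).im := by
    funext x
    rw [Complex.sq_norm, Complex.normSq_apply]
  rw [e]
  refine (((hasDerivAt_re h).mul (hasDerivAt_re h)).add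
    ((hasDerivAt_im h).mul (hasDerivAt_im h))).congr_deriv ?_
  simp only [Complex.mul_re, Complex.conj_re, Complex.conj_im]
  ring

theorem hasDerivAt_deriv {u : ℝ → ℂ} {r : ℝ} (h : ContDiffAt ℝ 2 u r) :
    HasDerivAt (deriv u) (iteratedDeriv 2 u r) r := by
  have h1 : ContDiffAt ℝ 1 (deriv u) r := h.derivWithin (m := 1) (by norm_num)
  have e : iteratedDeriv 2 u r = deriv (deriv u) r := by
    rw [iteratedDeriv_succ, iteratedDeriv_one]
  rw [e]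
  exact (h1.differentiableAt (by norm_num)).hasDerivAt

/-- The derivative of the virial functional along a solution. -/
theorem hasDerivAt_Wf {lam : ℂ} {L κ : ℝ} {α η : ℝ → ℂ} {w V P φ : ℝ → ℝ} {r k v t P' φ' : ℝ}
    (hr : r ≠ 0) (hα : ContDiffAt ℝ 2 α r) (hη : ContDiffAt ℝ 2 η r)
    (hw : HasDerivAt w (w r * k) r) (hV : HasDerivAt V (2 * t * w r) r) (hVr : V r = w r * v)
    (hP : HasDerivAt P P' r) (hφ : HasDerivAt φ φ' r)
    (e1 : iteratedDeriv 2 η r + (k : ℂ) * deriv η r - ((L / r ^ 2 : ℝ) : ℂ) * η r + lam * α r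
      + (v : ℂ) * deriv α r = 0)
    (e2 : iteratedDeriv 2 α r + (k : ℂ) * deriv α r - ((L / r ^ 2 : ℝ) : ℂ) * α r - lam * η r
      - (v : ℂ) * deriv η r = (P r : ℂ) * α r) :
    HasDerivAt (Wf lam L κ α η w V P φ)
      (w r * (lam.re * (‖deriv α r‖ ^ 2 + ‖deriv η r‖ ^ 2
          + L / r ^ 2 * (‖α r‖ ^ 2 + ‖η r‖ ^ 2) + P r * ‖α r‖ ^ 2)
        + (t - v * k) * (‖deriv α r‖ ^ 2 + ‖deriv η r‖ ^ 2)
        - L / r ^ 2 * (t - v / r) * (‖α r‖ ^ 2 + ‖η r‖ ^ 2) - (t * P r + v * P' / 2) * ‖α r‖ ^ 2)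
        + κ * (φ' * ‖α r‖ ^ 2 + 2 * φ r * (conj (α r) * deriv α r).re)) r := by
  have a0 : HasDerivAt α (deriv α r) r := (hα.differentiableAt (by norm_num)).hasDerivAt
  have b0 : HasDerivAt η (deriv η r) r := (hη.differentiableAt (by norm_num)).hasDerivAt
  have a1 := hasDerivAt_deriv hα
  have b1 := hasDerivAt_deriv hη
  have ea : iteratedDeriv 2 α r = (P r : ℂ) * α r - (k : ℂ) * deriv α r
      + ((L / r ^ 2 : ℝ) : ℂ) * α r + lam * η r + (v : ℂ) * deriv η r := by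
    linear_combination e2
  have eb : iteratedDeriv 2 η r = -((k : ℂ) * deriv η r) + ((L / r ^ 2 : ℝ) : ℂ) * η r
      - lam * α r - (v : ℂ) * deriv α r := by
    linear_combination e1
  rw [ea] at a1
  rw [eb] at b1
  have hx2 : HasDerivAt (fun x : ℝ => x ^ 2) (2 * r) r := by
    simpa using hasDerivAt_pow 2 r
  have t1 := (hasDerivAt_re ((((hasDerivAt_cj a1).mul a0).add
    ((hasDerivAt_cj b1).mul b0)).const_mul lam)).mul hw
  have t2 := (hV.mul (((hasDerivAt_nsq a1).add (hasDerivAt_nsq b1)).sub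
    (hP.mul (hasDerivAt_nsq a0)))).div_const 2
  have t3 := (((hV.div hx2 (pow_ne_zero 2 hr)).const_mul L).mul
    ((hasDerivAt_nsq a0).add (hasDerivAt_nsq b0))).div_const 2
  have t4 := (hφ.mul (hasDerivAt_nsq a0)).const_mul κ
  refine (((t1.add t2).sub t3).add t4).congr_deriv ?_
  simp only [Pi.add_apply, Pi.sub_apply, Pi.mul_apply, Pi.div_apply, hVr, Complex.sq_norm,
    Complex.normSq_apply, Complex.mul_re, Complex.mul_im, Complex.add_re, Complex.add_im,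
    Complex.sub_re, Complex.sub_im, Complex.neg_re, Complex.neg_im, Complex.conj_re,
    Complex.conj_im, Complex.ofReal_re, Complex.ofReal_im]
  field_simp
  ring

/-- The pointwise lower bound. -/
theorem lower_bound {σ L r k v t P P' w ω φ' K K' κ₀ A A₁ E E₁ R : ℝ} (hr : 0 < r) (hw : 0 < w)
    (hω : 0 < ω) (hL : 0 ≤ L) (hP : 0 ≤ P) (hv0 : 0 ≤ v) (hv : v ≤ K * r) (hk : k * r ≤ K')
    (hK' : 0 ≤ K') (ht0 : 0 ≤ t) (ht : t ≤ 3) (hP' : r * P' / 2 ≤ P + 16 / r ^ 2)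
    (hφ : 8 * r ^ 9 * ω ≤ φ') (hup : w ≤ 34 * (r ^ 11 * ω)) (hκ : 0 < κ₀)
    (hlo : κ₀ * (r ^ 11 * ω) ≤ w) (hR : -(A * A₁) ≤ R)
    (hσ : K * K' + K + (100 * K + 1) / κ₀ + 5 ≤ σ) :
    w * (A₁ ^ 2 + E₁ ^ 2) + r ^ 9 * ω * A ^ 2 ≤
      w * (σ * (A₁ ^ 2 + E₁ ^ 2 + L / r ^ 2 * (A ^ 2 + E ^ 2) + P * A ^ 2)
        + (t - v * k) * (A₁ ^ 2 + E₁ ^ 2) - L / r ^ 2 * (t - v / r) * (A ^ 2 + E ^ 2)
        - (t * P + v * P' / 2) * A ^ 2)
        + (100 * K + 1) * (φ' * A ^ 2 + 2 * (r ^ 10 * ω) * R) := by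
  have hvr : v / r ≤ K := by rw [div_le_iff₀ hr]; exact hv
  have hvr0 : 0 ≤ v / r := div_nonneg hv0 hr.le
  have hK : 0 ≤ K := hvr0.trans hvr
  have hκK : 0 ≤ (100 * K + 1) / κ₀ := by positivity
  have h1 : v * k ≤ K * K' := by
    have : v * k = v / r * (k * r) := by field_simp
    rw [this]
    calc v / r * (k * r) ≤ v / r * K' := mul_le_mul_of_nonneg_left hk hvr0
      _ ≤ K * K' := mul_le_mul_of_nonneg_right hvr hK'
  have h2 : v * P' / 2 ≤ K * P + K * (16 / r ^ 2) := by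
    have : v * P' / 2 = v / r * (r * P' / 2) := by field_simp
    rw [this]
    calc v / r * (r * P' / 2) ≤ v / r * (P + 16 / r ^ 2) := mul_le_mul_of_nonneg_left hP' hvr0
      _ ≤ K * (P + 16 / r ^ 2) := mul_le_mul_of_nonneg_right hvr (by positivity)
      _ = _ := by ring
  have hKK : 0 ≤ K * K' := mul_nonneg hK hK'
  set S₁ := A₁ ^ 2 + E₁ ^ 2 with hS₁
  set S := L / r ^ 2 * (A ^ 2 + E ^ 2) with hS
  have hS₁0 : 0 ≤ S₁ := by positivity
  have hS0 : 0 ≤ S := by positivity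
  have hS₁A : A₁ ^ 2 ≤ S₁ := le_add_of_nonneg_right (sq_nonneg _)
  have hSe : L / r ^ 2 * (t - v / r) * (A ^ 2 + E ^ 2) = (t - v / r) * S := by rw [hS]; ring
  rw [hSe]
  clear_value S₁ S
  have hA2 : 0 ≤ A ^ 2 := sq_nonneg A
  have g1 : (1 + (100 * K + 1) / κ₀) * S₁ ≤ σ * S₁ + (t - v * k) * S₁ := by
    rw [← add_mul]
    exact mul_le_mul_of_nonneg_right (by linarith) hS₁0
  have g2 : 0 ≤ σ * S - (t - v / r) * S := by
    rw [← sub_mul]
    exact mul_nonneg (by linarith) hS0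
  have g3 : -(K * (16 / r ^ 2) * A ^ 2) ≤ σ * (P * A ^ 2) - (t * P + v * P' / 2) * A ^ 2 := by
    have : -(K * (16 / r ^ 2)) ≤ σ * P - (t * P + v * P' / 2) := by
      have : (t + K) * P ≤ σ * P := mul_le_mul_of_nonneg_right (by linarith) hP
      linarith
    have := mul_le_mul_of_nonneg_right this hA2
    linarith
  have g4 : 7 * (r ^ 9 * ω * A ^ 2) - r ^ 11 * ω * A₁ ^ 2
      ≤ φ' * A ^ 2 + 2 * (r ^ 10 * ω) * R := by
    have q1 := mul_le_mul_of_nonneg_right hφ hA2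
    have q2 : 2 * (r ^ 10 * ω) * (-(A * A₁)) ≤ 2 * (r ^ 10 * ω) * R :=
      mul_le_mul_of_nonneg_left hR (by positivity)
    have q3 : 0 ≤ r ^ 9 * ω * (A - r * A₁) ^ 2 := by positivity
    have q4 : r ^ 9 * ω * (A - r * A₁) ^ 2 = r ^ 9 * ω * A ^ 2 + 2 * (r ^ 10 * ω) * (-(A * A₁))
        + r ^ 11 * ω * A₁ ^ 2 := by ring
    have q5 : 8 * r ^ 9 * ω * A ^ 2 = 8 * (r ^ 9 * ω * A ^ 2) := by ring
    linarith
  have g5 : w * (K * (16 / r ^ 2) * A ^ 2) ≤ 544 * K * (r ^ 9 * ω * A ^ 2) := by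
    have q : 0 ≤ K * (16 / r ^ 2) * A ^ 2 := by positivity
    calc w * (K * (16 / r ^ 2) * A ^ 2) ≤ 34 * (r ^ 11 * ω) * (K * (16 / r ^ 2) * A ^ 2) :=
          mul_le_mul_of_nonneg_right hup q
      _ = _ := by field_simp; ring
  have g6 : (100 * K + 1) * (r ^ 11 * ω * A₁ ^ 2) ≤ w * ((100 * K + 1) / κ₀ * S₁) := by
    have q1 : r ^ 11 * ω ≤ w / κ₀ := by rw [le_div_iff₀ hκ]; linarith
    have q3 : r ^ 11 * ω * A₁ ^ 2 ≤ w / κ₀ * S₁ :=
      mul_le_mul q1 hS₁A (sq_nonneg _) (by positivity)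
    calc (100 * K + 1) * (r ^ 11 * ω * A₁ ^ 2) ≤ (100 * K + 1) * (w / κ₀ * S₁) :=
          mul_le_mul_of_nonneg_left q3 (by positivity)
      _ = _ := by ring
  have g7 : w * ((1 + (100 * K + 1) / κ₀) * S₁ - K * (16 / r ^ 2) * A ^ 2) ≤
      w * (σ * (S₁ + S + P * A ^ 2) + (t - v * k) * S₁ - (t - v / r) * S
        - (t * P + v * P' / 2) * A ^ 2) := by
    refine mul_le_mul_of_nonneg_left ?_ hw.le
    linarith
  have g8 := mul_le_mul_of_nonneg_left g4 (show 0 ≤ 100 * K + 1 by positivity)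
  have g9 : 0 ≤ r ^ 9 * ω * A ^ 2 := by positivity
  have g10 : 0 ≤ K * (r ^ 9 * ω * A ^ 2) := mul_nonneg hK g9
  have q1 : w * ((1 + (100 * K + 1) / κ₀) * S₁ - K * (16 / r ^ 2) * A ^ 2)
      = w * S₁ + w * ((100 * K + 1) / κ₀ * S₁) - w * (K * (16 / r ^ 2) * A ^ 2) := by ring
  have q2 : (100 * K + 1) * (7 * (r ^ 9 * ω * A ^ 2) - r ^ 11 * ω * A₁ ^ 2)
      = 700 * (K * (r ^ 9 * ω * A ^ 2)) + 7 * (r ^ 9 * ω * A ^ 2)
        - (100 * K + 1) * (r ^ 11 * ω * A₁ ^ 2) := by ring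
  have q3 : 544 * K * (r ^ 9 * ω * A ^ 2) = 544 * (K * (r ^ 9 * ω * A ^ 2)) := by ring
  linarith

/-- A monotone function vanishing at both ends has zero derivative. -/
theorem deriv_eq_zero {W D : ℝ → ℝ} (hc : ContinuousOn W (Ici 0)) (h0 : W 0 = 0)
    (hd : ∀ r : ℝ, 0 < r → HasDerivAt W (D r) r) (hD : ∀ r : ℝ, 0 < r → 0 ≤ D r)
    (ht : Tendsto W atTop (𝓝 0)) : ∀ r : ℝ, 0 < r → D r = 0 := by
  have hm : MonotoneOn W (Ici 0) := by
    refine monotoneOn_of_deriv_nonneg (convex_Ici 0) hc ?_ ?_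
    · intro x hx
      rw [interior_Ici] at hx
      exact (hd x hx).differentiableAt.differentiableWithinAt
    · intro x hx
      rw [interior_Ici] at hx
      rw [(hd x hx).deriv]
      exact hD x hx
  have hz : ∀ r : ℝ, 0 < r → W r = 0 := by
    intro r hr
    refine le_antisymm ?_ ?_
    · refine ge_of_tendsto ht ?_
      filter_upwards [eventually_ge_atTop r] with x hx
      exact hm hr.le (hr.le.trans hx) hx
    · rw [← h0]
      exact hm self_mem_Ici hr.le hr.le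
  intro r hr
  have e : W =ᶠ[𝓝 r] fun _ => 0 := by
    filter_upwards [Ioi_mem_nhds hr] with x hx
    exact hz x hx
  have := (hd r hr).congr_of_eventuallyEq e.symm
  exact this.unique (hasDerivAt_const r 0)

end Vale.Agent.P139Z.LS
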