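import Vale.Agent.P139Z.IntB
import Vale.Agent.P139Z.LS.Calc

/-! Global bounds for a good profile. -/

open Set Filter Topology MeasureTheory Complex
open scoped NNReal ENNReal ComplexConjugate ContDiff

namespace Vale.Agent.P139Z.LS

variable {m : ℕ} {β : ℝ} {G : ℝ → ℂ} {C₀ C₁ c ϑ ρb : ℝ}

theorem a_pos (hm : 1 ≤ m) : 0 < 1 / (2 * (m : ℝ)) := by
  have : (1 : ℝ) ≤ m := by exact_mod_cast hm
  positivity

theorem a_le (hm : 1 ≤ m) : 1 / (2 * (m : ℝ)) ≤ 1 / 2 := by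
  have : (1 : ℝ) ≤ m := by exact_mod_cast hm
  exact one_div_le_one_div_of_le (by norm_num) (by linarith)

theorem ne_zero (hc : 0 < c) (hI : GoodInt m β G C₀ 1 ϑ ρb) (hF : GoodFar m G c C₁) {ρ : ℝ}
    (hρ : 0 ≤ ρ) : G ρ ≠ 0 := by
  intro h
  rcases le_total ρ 16 with h1 | h1
  · have := hI.lower ρ ⟨hρ, h1⟩
    rw [h, norm_zero, mul_zero] at this
    norm_num at this
  · have := hF.lower ρ h1
    rw [h, norm_zero, mul_zero] at this
    linarith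

theorem C₀_pos (hI : GoodInt m β G C₀ 1 ϑ ρb) : 0 < C₀ := by
  have h := hI.lower 0 ⟨le_rfl, by norm_num⟩
  by_contra hn
  have : C₀ * ‖G 0‖ ≤ 0 := mul_nonpos_of_nonpos_of_nonneg (not_lt.1 hn) (norm_nonneg _)
  linarith

theorem quot_bd (hc : 0 < c) (hI : GoodInt m β G C₀ 1 ϑ ρb) (hF : GoodFar m G c C₁) {ρ : ℝ}
    (hρ : 0 ≤ ρ) : ‖deriv G ρ / G ρ‖ ≤ C₀ ^ 2 + |C₁| / c ∧
      ρ * ‖deriv G ρ / G ρ‖ ≤ 16 * (C₀ ^ 2 + |C₁| / c) := by
  have h0 : 0 < ‖G ρ‖ := norm_pos_iff.2 (ne_zero hc hI hF hρ)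
  have hC := C₀_pos hI
  have hq : 0 ≤ |C₁| / c := by positivity
  rcases le_total ρ 16 with h1 | h1
  · have e : ‖deriv G ρ / G ρ‖ ≤ C₀ ^ 2 := by
      rw [norm_div, div_le_iff₀ h0]
      have q1 := hI.lower ρ ⟨hρ, h1⟩
      have q2 := hI.deriv_bd ρ ⟨hρ, h1⟩
      nlinarith
    refine ⟨by linarith, ?_⟩
    have := mul_le_mul h1 e (norm_nonneg _) (by norm_num)
    linarith
  · have hρ0 : 0 < ρ := by linarith
    have e : ρ * ‖deriv G ρ / G ρ‖ ≤ |C₁| / c := by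
      have q1 := hF.lower ρ h1
      have q2 := hF.deriv_bd ρ h1
      have y0 : 0 < ρ ^ (1 / (2 * (m : ℝ))) := Real.rpow_pos_of_pos hρ0 _
      have e2 : ρ ^ (-(1 / (2 * (m : ℝ)) + 1)) = (ρ ^ (1 / (2 * (m : ℝ))) * ρ)⁻¹ := by
        rw [Real.rpow_neg hρ0.le, Real.rpow_add hρ0, Real.rpow_one]
      rw [e2] at q2
      set y := ρ ^ (1 / (2 * (m : ℝ))) with hy
      have q3 : ‖deriv G ρ‖ * (y * ρ) ≤ |C₁| := by
        have : C₁ * (y * ρ)⁻¹ ≤ |C₁| * (y * ρ)⁻¹ :=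
          mul_le_mul_of_nonneg_right (le_abs_self _) (by positivity)
        have q4 := q2.trans this
        rwa [← div_eq_mul_inv, le_div_iff₀ (by positivity)] at q4
      rw [norm_div, ← mul_div_assoc, div_le_div_iff₀ h0 hc]
      have q5 : ρ * ‖deriv G ρ‖ * c ≤ ρ * ‖deriv G ρ‖ * (y * ‖G ρ‖) :=
        mul_le_mul_of_nonneg_left q1 (by positivity)
      have q6 : ‖deriv G ρ‖ * (y * ρ) * ‖G ρ‖ ≤ |C₁| * ‖G ρ‖ :=
        mul_le_mul_of_nonneg_right q3 h0.le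
      nlinarith
    have hn := norm_nonneg (deriv G ρ / G ρ)
    constructor
    · nlinarith [sq_nonneg C₀]
    · nlinarith [sq_nonneg C₀]

theorem hasDerivAt_Qr (hG : IsProfile m β G) (r : ℝ) :
    HasDerivAt (Qr G) (2 * r * deriv G (r ^ 2)) r := by
  have h1 : HasDerivAt G (deriv G (r ^ 2)) (r ^ 2) :=
    (hG.smooth.differentiable (by simp) _).hasDerivAt
  have hx2 : HasDerivAt (fun x : ℝ => x ^ 2) (2 * r) r := by
    simpa using hasDerivAt_pow 2 r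
  refine (HasDerivAt.scomp (h := fun x : ℝ => x ^ 2) r h1 hx2).congr_deriv ?_
  simp

theorem vel_eq (hG : IsProfile m β G) (r : ℝ) :
    vel G r = r * (1 / 2 + 4 * (deriv G (r ^ 2) / G (r ^ 2)).im) := by
  unfold vel
  rw [(hasDerivAt_Qr hG r).deriv]
  have : 2 * (r : ℂ) * deriv G (r ^ 2) / Qr G r
      = ((2 * r : ℝ) : ℂ) * (deriv G (r ^ 2) / G (r ^ 2)) := by
    unfold Qr
    push_cast
    ring
  rw [this, Complex.im_ofReal_mul]
  ring

theorem continuous_Qr (hG : IsProfile m β G) : Continuous (Qr G) :=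
  hG.smooth.continuous.comp (continuous_pow 2)

theorem continuous_wm (hG : IsProfile m β G) : Continuous (wm G) := by
  unfold wm
  exact (continuous_pow 11).mul ((continuous_Qr hG).norm.pow 2)

theorem continuous_vel (hc : 0 < c) (hG : IsProfile m β G) (hI : GoodInt m β G C₀ 1 ϑ ρb)
    (hF : GoodFar m G c C₁) : Continuous (vel G) := by
  have e : vel G = fun r => r * (1 / 2 + 4 * (deriv G (r ^ 2) / G (r ^ 2)).im) :=
    funext (vel_eq hG)
  rw [e]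
  have h1 : Continuous (deriv G) := hG.smooth.continuous_deriv (by simp)
  have h2 : Continuous fun r : ℝ => deriv G (r ^ 2) / G (r ^ 2) :=
    (h1.comp (continuous_pow 2)).div (hG.smooth.continuous.comp (continuous_pow 2))
      fun r => ne_zero hc hI hF (sq_nonneg r)
  exact continuous_id.mul (continuous_const.add (continuous_const.mul
    (Complex.continuous_im.comp h2)))

theorem wm_pos (hc : 0 < c) (hI : GoodInt m β G C₀ 1 ϑ ρb) (hF : GoodFar m G c C₁) {r : ℝ}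
    (hr : 0 < r) : 0 < wm G r := by
  unfold wm
  have : 0 < ‖Qr G r‖ := norm_pos_iff.2 (ne_zero hc hI hF (sq_nonneg r))
  positivity

theorem vel_nonneg (hc : 0 < c) (hG : IsProfile m β G) (hI : GoodInt m β G C₀ 1 ϑ ρb)
    (hF : GoodFar m G c C₁) {r : ℝ} (hr : 0 < r) : 0 ≤ vel G r := by
  have hd : ∀ x : ℝ, 0 < x → HasDerivAt (fun x => wm G x * vel G x)
      (2 * (3 - 1 / (2 * (m : ℝ))) * wm G x) x := fun x hx =>
    hasDerivAt_wm_vel hG hx (ne_zero hc hI hF (sq_nonneg x))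
  have hm : MonotoneOn (fun x => wm G x * vel G x) (Ici 0) := by
    refine monotoneOn_of_deriv_nonneg (convex_Ici 0)
      ((continuous_wm hG).mul (continuous_vel hc hG hI hF)).continuousOn ?_ ?_
    · intro x hx
      rw [interior_Ici] at hx
      exact (hd x hx).differentiableAt.differentiableWithinAt
    · intro x hx
      rw [interior_Ici] at hx
      rw [(hd x hx).deriv]
      have := a_le hI.one_le
      exact mul_nonneg (by linarith) (wm_pos hc hI hF hx).le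
  have h0 := hm self_mem_Ici hr.le hr.le
  have e : wm G 0 = 0 := by simp [wm]
  simp only [e, zero_mul] at h0
  exact nonneg_of_mul_nonneg_right h0 (wm_pos hc hI hF hr)

theorem vel_le (hc : 0 < c) (hG : IsProfile m β G) (hI : GoodInt m β G C₀ 1 ϑ ρb)
    (hF : GoodFar m G c C₁) {r : ℝ} (hr : 0 < r) :
    vel G r ≤ (1 / 2 + 4 * (C₀ ^ 2 + |C₁| / c)) * r := by
  rw [vel_eq hG, mul_comm]
  refine mul_le_mul_of_nonneg_right ?_ hr.le
  have h1 := (quot_bd hc hI hF (sq_nonneg r)).1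
  have h2 := (le_abs_self _).trans (Complex.abs_im_le_norm (deriv G (r ^ 2) / G (r ^ 2)))
  linarith

theorem sf_le (hc : 0 < c) (hI : GoodInt m β G C₀ 1 ϑ ρb) (hF : GoodFar m G c C₁) {ρ : ℝ}
    (hρ : 0 ≤ ρ) : sf G ρ ≤ 32 * (C₀ ^ 2 + |C₁| / c) := by
  unfold sf
  have h1 := (quot_bd hc hI hF hρ).2
  have h2 := (le_abs_self _).trans (Complex.abs_re_le_norm (deriv G ρ / G ρ))
  have h3 := mul_le_mul_of_nonneg_left h2 hρ
  linarith

theorem Pf_nonneg (m : ℕ) (G : ℝ → ℂ) (ρ : ℝ) : 0 ≤ Pf m G ρ := by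
  unfold Pf
  positivity

theorem pot1_eq (m : ℕ) (z : ℂ) : pot1 m z = ((((m : ℝ) + 1) * ‖z‖ ^ (2 * m) : ℝ) : ℂ) := by
  unfold pot1
  push_cast
  ring

theorem Pf_le (hE : GoodExt m G 1 16) {ρ : ℝ} (hρ : 16 ≤ ρ) : Pf m G ρ ≤ 2 := by
  have h := hE.v1 0 (by norm_num) ρ hρ
  rw [iteratedDeriv_zero, pot1_eq, Complex.norm_real, Real.norm_of_nonneg (by positivity)] at h
  have h1 : ρ ^ (-(1 + ((0 : ℕ) : ℝ))) ≤ 1 :=
    Real.rpow_le_one_of_one_le_of_nonpos (by linarith) (by simp)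
  unfold Pf
  have : 0 ≤ ‖G ρ‖ ^ (2 * m) := by positivity
  nlinarith

theorem dP_le (hc : 0 < c) (hG : IsProfile m β G) (hI : GoodInt m β G C₀ 1 ϑ ρb)
    (hE : GoodExt m G 1 16) (hF : GoodFar m G c C₁) {r : ℝ} (hr : 0 < r) :
    r * (2 * (m : ℝ) * sf G (r ^ 2) * Pf m G (r ^ 2) / r) / 2 ≤ Pf m G (r ^ 2) + 16 / r ^ 2 := by
  have e : r * (2 * (m : ℝ) * sf G (r ^ 2) * Pf m G (r ^ 2) / r) / 2
      = (m : ℝ) * sf G (r ^ 2) * Pf m G (r ^ 2) := by field_simp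
  have hr2 : 0 < r ^ 2 := by positivity
  rcases le_total (r ^ 2) 16 with h1 | h1
  · rw [e]
    have q1 := hI.mono (r ^ 2) ⟨hr2.le, h1⟩
    have q2 : 1 ≤ 16 / r ^ 2 := by rw [le_div_iff₀ hr2]; linarith
    linarith
  · have hGd : HasDerivAt G (deriv G (r ^ 2)) (r ^ 2) :=
      (hG.smooth.differentiable (by simp) _).hasDerivAt
    obtain ⟨ψ, hψ⟩ : ∃ ψ : ℝ, HasDerivAt (fun x => ‖G x‖ ^ (2 * m)) ψ (r ^ 2) := by
      have := (hasDerivAt_nsq hGd).pow m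
      refine ⟨_, this.congr_of_eventuallyEq (Eventually.of_forall fun x => ?_)⟩
      simp only [Pi.pow_apply, pow_mul]
    have d1 : HasDerivAt (fun x => pot1 m (G x)) (((((m : ℝ) + 1) * ψ : ℝ)) : ℂ) (r ^ 2) := by
      have := (hψ.const_mul ((m : ℝ) + 1)).ofReal_comp
      refine this.congr_of_eventuallyEq (Eventually.of_forall fun x => ?_)
      exact pot1_eq m (G x)
    have hx2 : HasDerivAt (fun x : ℝ => x ^ 2) (2 * r) r := by
      simpa using hasDerivAt_pow 2 r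
    have d2 : HasDerivAt (fun x => Pf m G (x ^ 2)) (2 * (m : ℝ) * (ψ * (2 * r))) r :=
      (HasDerivAt.comp (h := fun x : ℝ => x ^ 2) r hψ hx2).const_mul (2 * (m : ℝ))
    have d3 := hasDerivAt_Pf hG hr (ne_zero hc hI hF (sq_nonneg r))
    rw [d3.unique d2]
    have h := hE.v1 1 (by norm_num) (r ^ 2) h1
    rw [iteratedDeriv_one, d1.deriv, Complex.norm_real, one_mul] at h
    have e2 : (r ^ 2) ^ (-(1 + ((1 : ℕ) : ℝ))) = ((r ^ 2) ^ 2)⁻¹ := by
      rw [Real.rpow_neg hr2.le]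
      congr 1
      rw [← Real.rpow_natCast]
      norm_num
    rw [e2, Real.norm_eq_abs, abs_mul, abs_of_nonneg (by positivity : 0 ≤ (m : ℝ) + 1)] at h
    have q1 : (m : ℝ) * ψ ≤ ((r ^ 2) ^ 2)⁻¹ := by
      have := le_abs_self ψ
      have h0 : 0 ≤ (m : ℝ) := by positivity
      nlinarith [abs_nonneg ψ]
    have q2 : r * (2 * (m : ℝ) * (ψ * (2 * r))) / 2 = 2 * r ^ 2 * ((m : ℝ) * ψ) := by ring
    have q3 : 2 * r ^ 2 * ((m : ℝ) * ψ) ≤ 2 * r ^ 2 * ((r ^ 2) ^ 2)⁻¹ :=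
      mul_le_mul_of_nonneg_left q1 (by positivity)
    have q4 : 2 * r ^ 2 * ((r ^ 2) ^ 2)⁻¹ = 2 / r ^ 2 := by field_simp
    have q5 : 2 / r ^ 2 ≤ 16 / r ^ 2 := div_le_div_of_nonneg_right (by norm_num) hr2.le
    have := Pf_nonneg m G (r ^ 2)
    linarith

/-- The comparison weight. -/
noncomputable def om (m : ℕ) (r : ℝ) : ℝ := (1 + r ^ 2) ^ (-(2 * (1 / (2 * (m : ℝ)))))

theorem om_pos (m : ℕ) (r : ℝ) : 0 < om m r := Real.rpow_pos_of_pos (by positivity) _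

theorem om_eq (m : ℕ) (r : ℝ) : om m r = (((1 + r ^ 2) ^ (1 / (2 * (m : ℝ)))) ^ 2)⁻¹ := by
  unfold om
  rw [Real.rpow_neg (by positivity), mul_comm, Real.rpow_mul (by positivity), Real.rpow_two]

theorem weight_cmp (hc : 0 < c) (hI : GoodInt m β G C₀ 1 ϑ ρb) (hF : GoodFar m G c C₁) (r : ℝ) :
    ‖Qr G r‖ ^ 2 ≤ 34 * om m r ∧ min (C₀ ^ 2)⁻¹ (c ^ 2) * om m r ≤ ‖Qr G r‖ ^ 2 := by
  have ha0 := a_pos hI.one_le
  have ha := a_le hI.one_le
  have hC := C₀_pos hI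
  have hρ : 0 ≤ r ^ 2 := sq_nonneg r
  have ho := om_pos m r
  unfold Qr
  rcases le_total (r ^ 2) 16 with h1 | h1
  · have q1 : ‖G (r ^ 2)‖ ^ 2 ≤ 2 := by
      by_contra hn
      have h2 : 1 ≤ ‖G (r ^ 2)‖ ^ 2 := by linarith [not_le.1 hn]
      have h3 := hI.upper _ ⟨hρ, h1⟩
      rw [pow_mul] at h3
      have h4 := le_self_pow₀ h2 (Nat.one_le_iff_ne_zero.1 hI.one_le)
      linarith [not_le.1 hn]
    have q2 : (1 + r ^ 2) ^ (-1 : ℝ) ≤ om m r :=
      Real.rpow_le_rpow_of_exponent_le (by linarith) (by linarith)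
    have q3 : (17 : ℝ)⁻¹ ≤ (1 + r ^ 2) ^ (-1 : ℝ) := by
      rw [Real.rpow_neg_one]
      exact inv_anti₀ (by positivity) (by linarith)
    have q4 : om m r ≤ 1 := Real.rpow_le_one_of_one_le_of_nonpos (by linarith) (by linarith)
    have q5 : (C₀ ^ 2)⁻¹ ≤ ‖G (r ^ 2)‖ ^ 2 := by
      have h2 := hI.lower _ ⟨hρ, h1⟩
      rw [inv_le_iff_one_le_mul₀ (by positivity)]
      nlinarith
    refine ⟨by linarith, ?_⟩
    have q6 : min (C₀ ^ 2)⁻¹ (c ^ 2) * om m r ≤ (C₀ ^ 2)⁻¹ * 1 :=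
      mul_le_mul (min_le_left _ _) q4 ho.le (by positivity)
    linarith
  · have hρ0 : 0 < r ^ 2 := by linarith
    have l1 := hF.lower _ h1
    have l2 := hF.upper _ h1
    rw [om_eq]
    set y := (r ^ 2) ^ (1 / (2 * (m : ℝ))) with hy
    set z := (1 + r ^ 2) ^ (1 / (2 * (m : ℝ))) with hz
    have y0 : 0 < y := Real.rpow_pos_of_pos hρ0 _
    have yz : y ≤ z := Real.rpow_le_rpow hρ (by linarith) ha0.le
    have z0 : 0 < z := y0.trans_le yz
    have zy : z ≤ 2 * y := by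
      have s1 : z ≤ (2 * r ^ 2) ^ (1 / (2 * (m : ℝ))) :=
        Real.rpow_le_rpow (by positivity) (by linarith) ha0.le
      rw [Real.mul_rpow (by norm_num) hρ] at s1
      have s2 : (2 : ℝ) ^ (1 / (2 * (m : ℝ))) ≤ 2 ^ (1 : ℝ) :=
        Real.rpow_le_rpow_of_exponent_le (by norm_num) (by linarith)
      rw [Real.rpow_one] at s2
      exact s1.trans (mul_le_mul_of_nonneg_right s2 y0.le)
    have hn := norm_nonneg (G (r ^ 2))
    constructor
    · rw [← div_eq_mul_inv, le_div_iff₀ (by positivity)]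
      have s1 : ‖G (r ^ 2)‖ * z ≤ 2 := by nlinarith
      have s2 : (‖G (r ^ 2)‖ * z) ^ 2 ≤ 2 ^ 2 := pow_le_pow_left₀ (by positivity) s1 2
      nlinarith
    · rw [← div_eq_mul_inv, div_le_iff₀ (by positivity)]
      have s1 : c ≤ ‖G (r ^ 2)‖ * z := by nlinarith
      have s2 : c ^ 2 ≤ (‖G (r ^ 2)‖ * z) ^ 2 := pow_le_pow_left₀ hc.le s1 2
      have s3 := min_le_right (C₀ ^ 2)⁻¹ (c ^ 2)
      nlinarith

theorem continuous_om (m : ℕ) : Continuous (om m) := by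
  unfold om
  exact (continuous_const.add (continuous_pow 2)).rpow_const fun x =>
    Or.inl (show (1 : ℝ) + x ^ 2 ≠ 0 by positivity)

theorem hasDerivAt_phi (hm : 1 ≤ m) {r : ℝ} (hr : 0 < r) :
    ∃ φ' : ℝ, HasDerivAt (fun x => x ^ 10 * om m x) φ' r ∧ 8 * r ^ 9 * om m r ≤ φ' := by
  have ha0 := a_pos hm
  have ha := a_le hm
  have hx2 : HasDerivAt (fun x : ℝ => 1 + x ^ 2) (2 * r) r := by
    simpa using (hasDerivAt_pow 2 r).const_add 1
  have h1 := hx2.rpow_const (p := -(2 * (1 / (2 * (m : ℝ))))) (Or.inl (by positivity))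
  have h2 : HasDerivAt (fun x : ℝ => x ^ 10) (10 * r ^ 9) r := by
    simpa using hasDerivAt_pow 10 r
  refine ⟨_, h2.mul h1, ?_⟩
  have e : (1 + r ^ 2) ^ (-(2 * (1 / (2 * (m : ℝ)))) - 1) = om m r / (1 + r ^ 2) := by
    unfold om
    rw [Real.rpow_sub_one (by positivity)]
  rw [e]
  have ho := om_pos m r
  change _ ≤ 10 * r ^ 9 * om m r + _
  have q1 : r ^ 2 * (om m r / (1 + r ^ 2)) ≤ om m r := by
    rw [← mul_div_assoc, div_le_iff₀ (by positivity)]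
    nlinarith
  have q2 : r ^ 10 * (2 * r * -(2 * (1 / (2 * (m : ℝ)))) * (om m r / (1 + r ^ 2)))
      = -(4 * (1 / (2 * (m : ℝ))) * (r ^ 9 * (r ^ 2 * (om m r / (1 + r ^ 2))))) := by ring
  have q3 : r ^ 9 * (r ^ 2 * (om m r / (1 + r ^ 2))) ≤ r ^ 9 * om m r :=
    mul_le_mul_of_nonneg_left q1 (by positivity)
  have q4 : 4 * (1 / (2 * (m : ℝ))) * (r ^ 9 * (r ^ 2 * (om m r / (1 + r ^ 2))))
      ≤ 2 * (r ^ 9 * om m r) := mul_le_mul (by linarith) q3 (by positivity) (by norm_num)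
  rw [q2]
  linarith

end Vale.Agent.P139Z.LS
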