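import Vale.Agent.P139Z.Decay
import Vale.Agent.P139Z.LS.Prof

/-! The virial functional tends to zero at infinity. -/

open Set Filter Topology MeasureTheory Complex
open scoped NNReal ENNReal ComplexConjugate ContDiff

namespace Vale.Agent.P139Z.LS

theorem Wf_bound {lam : ℂ} {L κ : ℝ} {α η : ℝ → ℂ} {w V P φ : ℝ → ℝ} {r q X K κ₁ : ℝ}
    (hr : 1 ≤ r) (hL : 0 ≤ L) (hκ : 0 ≤ κ) (hq : 0 ≤ q) (hw : w r = r ^ 11 * q ^ 2)
    (hV0 : 0 ≤ V r) (hV : V r ≤ K * r ^ 12 * q ^ 2) (hP0 : 0 ≤ P r) (hP : P r ≤ 2)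
    (hφ0 : 0 ≤ φ r) (hφ : φ r ≤ κ₁ * r ^ 12 * q ^ 2) (hK : 0 ≤ K) (hκ₁ : 0 ≤ κ₁)
    (h1 : q * ‖α r‖ ≤ X) (h2 : q * ‖η r‖ ≤ X) (h3 : q * ‖deriv α r‖ ≤ X)
    (h4 : q * ‖deriv η r‖ ≤ X) :
    |Wf lam L κ α η w V P φ r| ≤ (2 * ‖lam‖ + 2 * K + L * K + κ * κ₁) * (r ^ 12 * X ^ 2) := by
  have hr0 : 0 < r := by linarith
  set A := ‖α r‖ with hA
  set E := ‖η r‖ with hE
  set A₁ := ‖deriv α r‖ with hA₁
  set E₁ := ‖deriv η r‖ with hE₁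
  have A0 : 0 ≤ A := norm_nonneg _
  have E0 : 0 ≤ E := norm_nonneg _
  have A₁0 : 0 ≤ A₁ := norm_nonneg _
  have E₁0 : 0 ≤ E₁ := norm_nonneg _
  have X0 : 0 ≤ X := (mul_nonneg hq A0).trans h1
  have pr : ∀ {u v : ℝ}, 0 ≤ u → 0 ≤ v → q * u ≤ X → q * v ≤ X → q ^ 2 * (u * v) ≤ X ^ 2 := by
    intro u v _ hv h h'
    calc q ^ 2 * (u * v) = (q * u) * (q * v) := by ring
      _ ≤ X * X := mul_le_mul h h' (mul_nonneg hq hv) X0
      _ = X ^ 2 := by ring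
  have r11 : r ^ 11 ≤ r ^ 12 := pow_le_pow_right₀ hr (by norm_num)
  have t1 : |(lam * (conj (deriv α r) * α r + conj (deriv η r) * η r)).re * w r|
      ≤ 2 * ‖lam‖ * (r ^ 12 * X ^ 2) := by
    have s1 : |(lam * (conj (deriv α r) * α r + conj (deriv η r) * η r)).re|
        ≤ ‖lam‖ * (A₁ * A + E₁ * E) := by
      refine (Complex.abs_re_le_norm _).trans ?_
      rw [norm_mul]
      refine mul_le_mul_of_nonneg_left ((norm_add_le _ _).trans ?_) (norm_nonneg _)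
      simp only [norm_mul, Complex.norm_conj]
      exact le_rfl
    rw [abs_mul, hw, abs_of_nonneg (by positivity : 0 ≤ r ^ 11 * q ^ 2)]
    have s2 := pr A₁0 A0 h3 h1
    have s3 := pr E₁0 E0 h4 h2
    calc _ ≤ ‖lam‖ * (A₁ * A + E₁ * E) * (r ^ 11 * q ^ 2) :=
          mul_le_mul_of_nonneg_right s1 (by positivity)
      _ = ‖lam‖ * (r ^ 11 * (q ^ 2 * (A₁ * A) + q ^ 2 * (E₁ * E))) := by ring
      _ ≤ ‖lam‖ * (r ^ 12 * (2 * X ^ 2)) :=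
          mul_le_mul_of_nonneg_left (mul_le_mul r11 (by linarith) (by positivity) (by positivity))
            (norm_nonneg _)
      _ = _ := by ring
  have sA := pr A0 A0 h1 h1
  have sE := pr E0 E0 h2 h2
  have sA₁ := pr A₁0 A₁0 h3 h3
  have sE₁ := pr E₁0 E₁0 h4 h4
  have t2 : |V r * (A₁ ^ 2 + E₁ ^ 2 - P r * A ^ 2) / 2| ≤ 2 * K * (r ^ 12 * X ^ 2) := by
    have s1 : |A₁ ^ 2 + E₁ ^ 2 - P r * A ^ 2| ≤ A₁ * A₁ + E₁ * E₁ + 2 * (A * A) := by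
      have p1 : P r * A ^ 2 ≤ 2 * A ^ 2 := mul_le_mul_of_nonneg_right hP (sq_nonneg _)
      have p2 : 0 ≤ P r * A ^ 2 := by positivity
      rw [abs_le]
      constructor <;> nlinarith [sq_nonneg A₁, sq_nonneg E₁, sq_nonneg A]
    rw [abs_div, abs_mul, abs_of_nonneg hV0, abs_two, div_le_iff₀ (by norm_num)]
    calc _ ≤ K * r ^ 12 * q ^ 2 * (A₁ * A₁ + E₁ * E₁ + 2 * (A * A)) :=
          mul_le_mul hV s1 (abs_nonneg _) (by positivity)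
      _ = K * r ^ 12 * (q ^ 2 * (A₁ * A₁) + q ^ 2 * (E₁ * E₁) + 2 * (q ^ 2 * (A * A))) := by ring
      _ ≤ K * r ^ 12 * (4 * X ^ 2) := mul_le_mul_of_nonneg_left (by linarith) (by positivity)
      _ = _ := by ring
  have t3 : |L * (V r / r ^ 2) * (A ^ 2 + E ^ 2) / 2| ≤ L * K * (r ^ 12 * X ^ 2) := by
    rw [abs_of_nonneg (by positivity), div_le_iff₀ (by norm_num)]
    have s1 : V r / r ^ 2 ≤ K * r ^ 12 * q ^ 2 :=
      (div_le_self hV0 (one_le_pow₀ hr)).trans hV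
    calc _ ≤ L * (K * r ^ 12 * q ^ 2) * (A ^ 2 + E ^ 2) :=
          mul_le_mul_of_nonneg_right (mul_le_mul_of_nonneg_left s1 hL) (by positivity)
      _ = L * K * r ^ 12 * (q ^ 2 * (A * A) + q ^ 2 * (E * E)) := by ring
      _ ≤ L * K * r ^ 12 * (2 * X ^ 2) := mul_le_mul_of_nonneg_left (by linarith) (by positivity)
      _ = _ := by ring
  have t4 : |κ * (φ r * A ^ 2)| ≤ κ * κ₁ * (r ^ 12 * X ^ 2) := by
    rw [abs_of_nonneg (by positivity)]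
    calc _ ≤ κ * (κ₁ * r ^ 12 * q ^ 2 * A ^ 2) :=
          mul_le_mul_of_nonneg_left (mul_le_mul_of_nonneg_right hφ (by positivity)) hκ
      _ = κ * κ₁ * r ^ 12 * (q ^ 2 * (A * A)) := by ring
      _ ≤ κ * κ₁ * r ^ 12 * X ^ 2 := mul_le_mul_of_nonneg_left sA (by positivity)
      _ = _ := by ring
  unfold Wf
  rw [← hA, ← hE, ← hA₁, ← hE₁]
  rw [abs_le] at t1 t2 t3 t4 ⊢
  constructor <;> linarith [t1.1, t1.2, t2.1, t2.2, t3.1, t3.2, t4.1, t4.2]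

theorem quot_deriv {u Q : ℝ → ℂ} {u' Q' : ℂ} {r : ℝ} (hu : HasDerivAt u u' r)
    (hQ : HasDerivAt Q Q' r) (h0 : Q r ≠ 0) : ∃ D : ℂ, HasDerivAt (fun x => u x / Q x) D r ∧
      ‖Q r‖ * ‖D‖ ≤ ‖u'‖ + ‖u r‖ * ‖Q' / Q r‖ := by
  refine ⟨_, hu.div hQ h0, ?_⟩
  rw [← norm_mul, ← norm_mul]
  have : Q r * ((u' * Q r - u r * Q') / Q r ^ 2) = u' - u r * (Q' / Q r) := by field_simp
  rw [this]
  exact norm_sub_le _ _

variable {m : ℕ} {β : ℝ} {G : ℝ → ℂ} {f g : ℝ → ℂ}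

theorem four_bounds (hG : IsProfile m β G) (hf : BddC 30 f) (hg : BddC 30 g) {r : ℝ}
    (h0 : G (r ^ 2) ≠ 0) {T X : ℝ} (hT : ‖2 * r * deriv G (r ^ 2) / G (r ^ 2)‖ ≤ T)
    (h1 : ‖f r‖ ≤ X) (h2 : ‖g r‖ ≤ X) (h3 : ‖deriv f r‖ ≤ X) (h4 : ‖deriv g r‖ ≤ X) :
    ‖Qr G r‖ * ‖al G f g r‖ ≤ (1 + T) * X ∧ ‖Qr G r‖ * ‖et G f g r‖ ≤ (1 + T) * X ∧
      ‖Qr G r‖ * ‖deriv (al G f g) r‖ ≤ (1 + T) * X ∧
      ‖Qr G r‖ * ‖deriv (et G f g) r‖ ≤ (1 + T) * X := by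
  have hQ0 : Qr G r ≠ 0 := h0
  have hQ1 : conj (Qr G r) ≠ 0 := by simpa using hQ0
  have hq : 0 < ‖Qr G r‖ := norm_pos_iff.2 hQ0
  have T0 : 0 ≤ T := (norm_nonneg _).trans hT
  have X0 : 0 ≤ X := (norm_nonneg _).trans h1
  have TX : 0 ≤ T * X := mul_nonneg T0 X0
  have fd : HasDerivAt f (deriv f r) r := (hf.smooth.differentiable (by simp) r).hasDerivAt
  have gd : HasDerivAt g (deriv g r) r := (hg.smooth.differentiable (by simp) r).hasDerivAt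
  obtain ⟨D₁, d1, b1⟩ := quot_deriv fd (hasDerivAt_Qr hG r) hQ0
  obtain ⟨D₂, d2, b2⟩ := quot_deriv gd (hasDerivAt_cj (hasDerivAt_Qr hG r)) hQ1
  rw [← map_div₀, Complex.norm_conj, Complex.norm_conj] at b2
  have c1 : ‖f r‖ * ‖2 * r * deriv G (r ^ 2) / Qr G r‖ ≤ X * T :=
    mul_le_mul h1 hT (norm_nonneg _) X0
  have c2 : ‖g r‖ * ‖2 * r * deriv G (r ^ 2) / Qr G r‖ ≤ X * T :=
    mul_le_mul h2 hT (norm_nonneg _) X0
  have n1 : ‖Qr G r‖ * ‖f r / Qr G r‖ = ‖f r‖ := by rw [norm_div]; field_simp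
  have n2 : ‖Qr G r‖ * ‖g r / conj (Qr G r)‖ = ‖g r‖ := by
    rw [norm_div, Complex.norm_conj]; field_simp
  have n2I : ‖(2 * I : ℂ)‖ = 2 := by simp
  have n2' : ‖(2 : ℂ)‖ = 2 := by simp
  have da : deriv (al G f g) r = (D₁ + D₂) / 2 := ((d1.add d2).div_const 2).deriv
  have de : deriv (et G f g) r = (D₁ - D₂) / (2 * I) := ((d1.sub d2).div_const (2 * I)).deriv
  refine ⟨?_, ?_, ?_, ?_⟩
  · unfold al
    rw [norm_div, n2']
    have := mul_le_mul_of_nonneg_left (norm_add_le (f r / Qr G r) (g r / conj (Qr G r))) hq.le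
    nlinarith
  · unfold et
    rw [norm_div, n2I]
    have := mul_le_mul_of_nonneg_left (norm_sub_le (f r / Qr G r) (g r / conj (Qr G r))) hq.le
    nlinarith
  · rw [da, norm_div, n2']
    have := mul_le_mul_of_nonneg_left (norm_add_le D₁ D₂) hq.le
    nlinarith
  · rw [de, norm_div, n2I]
    have := mul_le_mul_of_nonneg_left (norm_sub_le D₁ D₂) hq.le
    nlinarith

/-- Decay like `r⁻⁸` of a solution of the homogeneous system. -/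
theorem decay8 (hm : 1 ≤ m) (hG : IsProfile m β G) {l : ℕ} {lam : ℂ}
    (h : RSol m β G l lam f g 0 0) (hσ : 4 ≤ lam.re) : ∃ B : ℝ, 0 ≤ B ∧ ∀ r : ℝ, 1 ≤ r →
      ‖f r‖ ≤ B / r ^ 8 ∧ ‖g r‖ ≤ B / r ^ 8 ∧ ‖deriv f r‖ ≤ B / r ^ 8 ∧
        ‖deriv g r‖ ≤ B / r ^ 8 := by
  have e : red l (0 : ℝ → ℂ) = fun _ => 0 := by
    funext ρ
    simp [red]
  have hz : Symb (-((l : ℝ) / 2 + 4)) (red l (0 : ℝ → ℂ)) := by
    rw [e]
    exact Symb.zero _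
  obtain ⟨hf, hg⟩ := h.decay hm hG (b := 4) (by linarith [a_pos hm]) le_rfl hz hz
  obtain ⟨Cf, hCf⟩ := decay_radius (h.bf.smooth.of_le (by norm_num)) hf
  obtain ⟨Cg, hCg⟩ := decay_radius (h.bg.smooth.of_le (by norm_num)) hg
  refine ⟨|Cf| + |Cg|, by positivity, fun r hr => ?_⟩
  have hr0 : 0 < r := by linarith
  have e8 : r ^ (-(2 * 4 : ℝ)) = (r ^ 8)⁻¹ := by
    rw [Real.rpow_neg hr0.le]
    congr 1
    rw [← Real.rpow_natCast]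
    norm_num
  have e9 : r ^ (-(2 * 4 + 1 : ℝ)) ≤ (r ^ 8)⁻¹ := by
    rw [← e8]
    exact Real.rpow_le_rpow_of_exponent_le hr (by norm_num)
  have p9 : 0 ≤ r ^ (-(2 * 4 + 1 : ℝ)) := by positivity
  have p8 : 0 ≤ (r ^ 8)⁻¹ := by positivity
  obtain ⟨a1, a2⟩ := hCf r hr
  obtain ⟨a3, a4⟩ := hCg r hr
  rw [e8] at a1 a3
  have lf : Cf ≤ |Cf| + |Cg| := (le_abs_self _).trans (le_add_of_nonneg_right (abs_nonneg _))
  have lg : Cg ≤ |Cf| + |Cg| := (le_abs_self _).trans (le_add_of_nonneg_left (abs_nonneg _))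
  have p0 : 0 ≤ |Cf| + |Cg| := by positivity
  rw [div_eq_mul_inv]
  exact ⟨a1.trans (mul_le_mul_of_nonneg_right lf p8), a3.trans (mul_le_mul_of_nonneg_right lg p8),
    a2.trans (mul_le_mul lf e9 p9 p0), a4.trans (mul_le_mul lg e9 p9 p0)⟩

end Vale.Agent.P139Z.LS
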